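import Mathlib
import Vale.Agent.P240.Homology
import Vale.Agent.P240.Blocks

/-!
Nonzero rational homology of the poset of elementary abelian 2-subgroups for permutation groups
with blocks carrying alternating groups or full cycles of odd length.
-/

namespace Vale.Agent.Results.P240.AlternatingBlocks

open Vale.Agent.P240

theorem result (Ω ι : Type) [Fintype Ω] [DecidableEq Ω] [Fintype ι] (π : Ω → ι)
    (G : Subgroup (Equiv.Perm Ω))
    (hpres : ∀ g ∈ G, ∀ x y, π x = π y → π (g x) = π (g y))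
    (hblocks :
      (∀ i,
        (6 ≤ Nat.card {x // π x = i} ∧ Nat.card {x // π x = i} ≠ 7 ∧
          ∀ σ : Equiv.Perm Ω, Equiv.Perm.sign σ = 1 → (∀ x, π x ≠ i → σ x = x) → σ ∈ G) ∨
        (3 ∣ Nat.card {x // π x = i} ∧ Odd (Nat.card {x // π x = i}) ∧
          ∃ c ∈ G, c.IsCycle ∧ ∀ x, c x ≠ x ↔ π x = i)) ∨
      ∃ r : ℕ, r.Prime ∧ ∀ i, r ∣ Nat.card {x // π x = i} ∧
        Odd (Nat.card {x // π x = i}) ∧ ∃ c ∈ G, c.IsCycle ∧ ∀ x, c x ≠ x ↔ π x = i) :
    HasNonzeroReducedHomology (ElemAbelianPoset 2 G) := by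
  classical
  let B : ι → Finset Ω := fun i => {x | π x = i}
  have hB : ∀ i x, x ∈ B i ↔ π x = i := fun i x => by simp [B]
  have hc : ∀ i, Nat.card {x // π x = i} = (B i).card := fun i => by
    rw [Nat.card_eq_fintype_card]
    exact Fintype.card_of_subtype (B i) (hB i)
  have hcyc : ∀ (r : ℕ), r.Prime → ∀ i, r ∣ Nat.card {x // π x = i} →
      Odd (Nat.card {x // π x = i}) →
      (∃ c ∈ G, c.IsCycle ∧ ∀ x, c x ≠ x ↔ π x = i) → Nonempty (BlockData r G (B i)) := by
    intro r hr i hd ho ⟨c, hcG, hcyc, hsupp⟩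
    refine blockData_cycle G (B i) r hr (hc i ▸ hd) (hc i ▸ ho) c hcG hcyc ?_
    ext x
    rw [Equiv.Perm.mem_support, hB, hsupp]
  rcases hblocks with h | ⟨r, hr, h⟩
  · haveI : Fact (Nat.Prime 3) := ⟨by norm_num⟩
    refine homology_of_blocks π G hpres 3 B hB fun i => Classical.choice ?_
    rcases h i with ⟨h6, h7, halt⟩ | ⟨hd, ho, hcy⟩
    · refine blockData_three G (B i) (fun σ hs hsub => halt σ hs fun x hx => ?_)
        (hc i ▸ h6) (hc i ▸ h7)
      exact Equiv.Perm.notMem_support.1 fun hm => hx ((hB i x).1 (hsub hm))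
    · exact hcyc 3 (by norm_num) i hd ho hcy
  · haveI : Fact r.Prime := ⟨hr⟩
    exact homology_of_blocks π G hpres r B hB
      fun i => Classical.choice (hcyc r hr i (h i).1 (h i).2.1 (h i).2.2)

end Vale.Agent.Results.P240.AlternatingBlocks
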